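import Vale.Agent.P241.H208.PowCmp
import Vale.Agent.P241.H585.Cone
import Vale.Agent.P241.H486.Fix

/-!
# P241, block YG: the Young step for `G`-spaces, from the Young step in `T`

`youngG_of_young` : `H132.YoungG S p` from `R.YoungStmt S p` and two closure properties of the class
of finite `G`-cell spaces: products with the line (`LineGFC`) and finite powers (`PowersGFC`).
-/

open CategoryTheory MonoidalCategory Limits OnePoint
open Vale.Agent.P251 Vale.Agent.P251.St Vale.Agent.P251.St.SHCat Vale.Agent.P241.St
open Vale.Agent.P241.Geo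

noncomputable section

namespace Vale.Agent.P241.H208

/-- Products of finite `G`-cell spaces with the line are finite `G`-cell spaces. -/
def LineGFC : Prop := ∀ (G : Type) [Group G] [Finite G] (X : GSpace G), GFC G X →
  GFC G (xt X Rr)

/-- Finite powers of finite `G`-cell spaces are finite `G`-cell spaces. -/
def PowersGFC : Prop := ∀ (G : Type) [Group G] [Finite G] (X : GSpace G), GFC G X →
  ∀ m : ℕ, GFC G (powG X (Fin m))

theorem gConeEx_of (hLine : LineGFC) {T : SHCat} (S : Susp T) : GConeEx S :=
  fun G _ _ X Y hX hY f => by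
    have h : GFC G (gcone f.1 f.2) := gfc_gcone' f.1 f.2 hY (hLine G X hX)
    exact ⟨gcone f.1 f.2, h, fun V => isConeOf_fix f.1 f.2 S V (H486.fixFC G X hX V)
      (H486.fixFC G Y hY V) (H486.fixFC G _ h V)⟩

/-- **The Young step for `G`-spaces.** -/
theorem youngG_of_young (hLine : LineGFC) (hPow : PowersGFC) {T : SHCat} (S : Susp T) {p : ℕ}
    (hY : R.YoungStmt S p) : H132.YoungG S p :=
  youngG_of S H486.fixFC (fun G _ _ X hX m => hLine G _ (hPow G X hX m)) (gConeEx_of hLine S)
    (powCmp S) hY

end Vale.Agent.P241.H208
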