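import Vale.Agent.P241.H585.Api
import Vale.Agent.P251.G.PowLC

/-!
# P241, block YG: powers of a `G`-space

* `powG X J : GSpace G` : the space of functions `J → X` with the pointwise action;
  `pwI X J : LC.powObj J (L X) ≅ L (powG X J)` is the identity.
* `reI σ Z : LC.powObj J' Z ≅ LC.powObj J Z` for `σ : J ≃ J'`: `x ↦ x ∘ σ`.
* `permG X σ : L (powG X J) ⟶ L (powG X J)` : the permutation `x ↦ x ∘ σ`, equivariant
  (`eqv_permG`).
* `fixPow X J V : LC.powObj J (fixL X V) ≅ fixL (powG X J) V` : fixed points of powers, natural in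
  permutations (`fixPow_permG`) and in `X` (`fixPow_powGHom`).
-/

open CategoryTheory MonoidalCategory Limits OnePoint Topology
open Vale.Agent.P251.G Vale.Agent.P251.G.LC Vale.Agent.P251.St Vale.Agent.P241.St
open Vale.Agent.P241.Geo

noncomputable section

namespace Vale.Agent.P241.H208

/-! ### reindexing -/

/-- reindexing the power of an object -/
def reI {J J' : Type} [Finite J] [Finite J'] (σ : J ≃ J') (Z : LC) :
    LC.powObj J' Z ≅ LC.powObj J Z :=
  ofHomeo (X := LC.powObj J' Z) (Y := LC.powObj J Z)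
    { toFun := fun x j => x (σ j)
      invFun := fun x j => x (σ.symm j)
      left_inv := fun x => funext fun j => by
        change x (σ (σ.symm j)) = x j
        rw [Equiv.apply_symm_apply]
      right_inv := fun x => funext fun j => by
        change x (σ.symm (σ j)) = x j
        rw [Equiv.symm_apply_apply]
      continuous_toFun := continuous_pi fun j => continuous_apply (σ j)
      continuous_invFun := continuous_pi fun j => continuous_apply (σ.symm j) }

theorem app_reI_coe {J J' : Type} [Finite J] [Finite J'] (σ : J ≃ J') (Z : LC) (x : J' → Z) :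
    app (reI σ Z).hom (x : OnePoint (J' → Z)) = ((x ∘ σ : J → Z) : OnePoint (J → Z)) := rfl

section

variable {J : Type} [Finite J]

@[reassoc]
theorem reI_naturality {Z W : LC} (σ : Equiv.Perm J) (f : Z ⟶ W) :
    (reI σ Z).hom ≫ LC.powHom J f = LC.powHom J f ≫ (reI σ W).hom := by
  apply hom_ext
  intro x
  rw [app_comp, app_comp, app_reI_coe, LC.app_powHom_coe, LC.app_powHom_coe]
  by_cases h : ∀ j, app f (x j : OnePoint Z) ≠ ∞
  · choose y hy using fun j => OnePoint.ne_infty_iff_exists.mp (h j)
    have e1 : (fun j => app f (x j : OnePoint Z)) = fun j => (y j : OnePoint W) :=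
      funext fun j => (hy j).symm
    have e2 : (fun j => app f (((x ∘ σ) j : Z) : OnePoint Z)) = fun j => (y (σ j) : OnePoint W) :=
      funext fun j => (hy (σ j)).symm
    rw [e1, e2, OP.smash_coe, OP.smash_coe]
    rfl
  · push Not at h
    obtain ⟨j, hj⟩ := h
    have h2 : app f (((x ∘ σ) (σ.symm j) : Z) : OnePoint Z) = ∞ := by
      change app f ((x (σ (σ.symm j)) : Z) : OnePoint Z) = ∞
      rw [Equiv.apply_symm_apply]
      exact hj
    rw [OP.smash_infty (fun j => app f (x j : OnePoint Z)) hj,
      OP.smash_infty (fun j => app f (((x ∘ σ) j : Z) : OnePoint Z)) h2]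
    exact (app_infty (X := LC.powObj J W) (Y := LC.powObj J W) (reI σ W).hom).symm

theorem reI_one (Z : LC) : (reI (1 : Equiv.Perm J) Z).hom = 𝟙 (LC.powObj J Z) := by
  apply hom_ext
  intro x
  rfl

/-- `x ↦ x ∘ (σ * τ)` is `x ↦ x ∘ σ` followed by `x ↦ x ∘ τ` -/
theorem reI_mul (σ τ : Equiv.Perm J) (Z : LC) :
    (reI (σ * τ) Z).hom = (reI σ Z).hom ≫ (reI τ Z).hom := by
  apply hom_ext
  intro x
  rfl

end

variable {G : Type} [Group G]

/-! ### powers of a `G`-space -/

/-- the power of a `G`-space, with the pointwise action -/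
def powG (X : GSpace G) (J : Type) [Finite J] : GSpace G := ⟨J → X.carrier⟩

section

variable (X : GSpace G) (J : Type) [Finite J]

/-- the `LC` object of a power (the identity) -/
def pwI : LC.powObj J (L X) ≅ L (powG X J) := Iso.refl _

theorem app_pwI_hom_coe (x : J → X.carrier) :
    app (pwI X J).hom (x : OnePoint (J → X.carrier)) =
      (OnePoint.some (x : (powG X J).carrier) : OnePoint (powG X J).carrier) := rfl

@[reassoc]
theorem pwI_act (g : G) :
    (pwI X J).hom ≫ act (powG X J) g = LC.powHom J (act X g) ≫ (pwI X J).hom := by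
  apply hom_ext
  intro x
  exact (OP.smash_coe (fun j => g • x j)).symm

end

/-- the power of a map -/
def powGHom {X Y : GSpace G} (J : Type) [Finite J] (f : L X ⟶ L Y) :
    L (powG X J) ⟶ L (powG Y J) := (pwI X J).inv ≫ LC.powHom J f ≫ (pwI Y J).hom

@[reassoc]
theorem pwI_powGHom {X Y : GSpace G} (J : Type) [Finite J] (f : L X ⟶ L Y) :
    (pwI X J).hom ≫ powGHom J f = LC.powHom J f ≫ (pwI Y J).hom := by
  rw [powGHom, Iso.hom_inv_id_assoc]

theorem eqv_powGHom {X Y : GSpace G} (J : Type) [Finite J] {f : L X ⟶ L Y} (hf : Eqv f) :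
    Eqv (powGHom J f) := by
  intro g
  rw [← cancel_epi (pwI X J).hom, pwI_act_assoc, pwI_powGHom, pwI_powGHom_assoc, pwI_act,
    ← Category.assoc, ← Category.assoc, ← LC.powHom_comp, ← LC.powHom_comp, hf g]

section

variable (X : GSpace G) {J : Type} [Finite J]

/-- the permutation of the coordinates `x ↦ x ∘ σ` -/
def permG (σ : Equiv.Perm J) : L (powG X J) ⟶ L (powG X J) :=
  (pwI X J).inv ≫ (reI σ (L X)).hom ≫ (pwI X J).hom

@[reassoc]
theorem pwI_permG (σ : Equiv.Perm J) :
    (pwI X J).hom ≫ permG X σ = (reI σ (L X)).hom ≫ (pwI X J).hom := by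
  rw [permG, Iso.hom_inv_id_assoc]

theorem eqv_permG (σ : Equiv.Perm J) : Eqv (X := powG X J) (Y := powG X J) (permG X σ) := by
  intro g
  rw [← cancel_epi (pwI X J).hom, pwI_act_assoc, pwI_permG, pwI_permG_assoc, pwI_act,
    reI_naturality_assoc]

variable (J)

/-- the fixed points of a power -/
def fixPowHomeo (V : Subgroup G) :
    (J → (X.fix V).carrier) ≃ₜ ((powG X J).fix V).carrier where
  toFun x := ⟨fun j => (x j).1, fun g => funext fun j => (x j).2 g⟩
  invFun x := fun j => ⟨x.1 j, fun g => congrFun (x.2 g) j⟩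
  left_inv _ := rfl
  right_inv _ := rfl
  continuous_toFun :=
    (isClosedEmbedding_fix (powG X J) V).isEmbedding.continuous_iff.mpr
      (continuous_pi fun j => (isClosedEmbedding_fix X V).continuous.comp (continuous_apply j))
  continuous_invFun :=
    continuous_pi fun j => (isClosedEmbedding_fix X V).isEmbedding.continuous_iff.mpr
      ((continuous_apply j).comp (isClosedEmbedding_fix (powG X J) V).continuous)

/-- the fixed points of a power, in `LC` -/
def fixPow (V : Subgroup G) : LC.powObj J (fixL X V) ≅ fixL (powG X J) V :=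
  ofHomeo (X := LC.powObj J (fixL X V)) (Y := fixL (powG X J) V) (fixPowHomeo X J V)

@[reassoc]
theorem fixPow_hom_ι (V : Subgroup G) :
    (fixPow X J V).hom ≫ fixι (powG X J) V = LC.powHom J (fixι X V) ≫ (pwI X J).hom := by
  apply hom_ext
  intro x
  rw [app_comp, app_comp, LC.app_powHom_coe]
  have h : (OP.smash fun j => app (fixι X V) (x j : OnePoint (fixL X V))) =
      ((fun j => (x j).1 : J → X.carrier) : OnePoint (J → X.carrier)) :=
    OP.smash_coe (fun j => ((x j).1 : X.carrier))
  exact (congrArg (app (pwI X J).hom) h).symm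

variable {J}

/-- the fixed points of a permutation of the coordinates -/
@[reassoc]
theorem fixPow_permG (σ : Equiv.Perm J) (V : Subgroup G) :
    (fixPow X J V).hom ≫ fixMap (X := powG X J) (Y := powG X J) (permG X σ) (eqv_permG X σ) V =
      (reI σ (fixL X V)).hom ≫ (fixPow X J V).hom := by
  rw [← cancel_mono (fixι (powG X J) V), Category.assoc, fixMap_ι, Category.assoc,
    fixPow_hom_ι, fixPow_hom_ι_assoc, reI_naturality_assoc, pwI_permG]

end

/-- the fixed points of the power of a map -/
@[reassoc]
theorem fixPow_powGHom {X Y : GSpace G} (J : Type) [Finite J] {f : L X ⟶ L Y} (hf : Eqv f)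
    (V : Subgroup G) :
    (fixPow X J V).hom ≫ fixMap (powGHom J f) (eqv_powGHom J hf) V =
      LC.powHom J (fixMap f hf V) ≫ (fixPow Y J V).hom := by
  rw [← cancel_mono (fixι (powG Y J) V), Category.assoc, fixMap_ι, Category.assoc,
    fixPow_hom_ι, fixPow_hom_ι_assoc, pwI_powGHom, ← Category.assoc, ← Category.assoc,
    ← LC.powHom_comp, ← LC.powHom_comp, fixMap_ι]

end Vale.Agent.P241.H208
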