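import Vale.Agent.P241.H132.Stage
import Vale.Agent.P241.R.TSide
import Vale.Agent.P241.H241.GLin
import Vale.Agent.P241.H399.TCone
import Vale.Agent.P241.H435.RealSt
import Vale.Agent.P241.H208.PowFix

/-!
# P241, block YG: the Young step for `G`-spaces

`youngG_of` : the Young step `H132.YoungG` from the Young step in `T` (`R.YoungStmt`), mapping cones
of equivariant maps (`GConeEx`), powers of finite `G`-cell spaces (`PowGFC`) and the comparison of
the powers of a space with the tensor powers of its suspension spectrum (`PowCmp`).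
-/

open CategoryTheory MonoidalCategory Limits Pretriangulated OnePoint
open Vale.Agent.P251 Vale.Agent.P251.St Vale.Agent.P251.St.SHCat Vale.Agent.P241.St
open Vale.Agent.P251.G Vale.Agent.P251.G.LC Vale.Agent.P251.I
open Vale.Agent.P241.Geo Vale.Agent.P241.H241
open Vale.Agent.P093.SymPow Vale.Agent.P093.N.Young

noncomputable section

namespace Vale.Agent.P241.H208

/-! ### elements of the group algebra as lists -/

/-- every element of the group algebra is a sum of signed group elements -/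
theorem exists_slist {Γ : Type*} [Group Γ] (x : MonoidAlgebra ℤ Γ) :
    ∃ c : List (Bool × Γ), x = (c.map fun u => sg u.1 • MonoidAlgebra.single u.2 (1 : ℤ)).sum := by
  induction x using MonoidAlgebra.induction_linear with
  | zero => exact ⟨[], rfl⟩
  | add x y hx hy =>
    obtain ⟨c, hc⟩ := hx
    obtain ⟨d, hd⟩ := hy
    exact ⟨c ++ d, by rw [List.map_append, List.sum_append, ← hc, ← hd]⟩
  | single σ n =>
    obtain ⟨k, rfl | rfl⟩ := n.eq_nat_or_neg
    · refine ⟨List.replicate k (true, σ), ?_⟩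
      rw [List.map_replicate, List.sum_replicate]
      change _ = k • ((1 : ℤ) • MonoidAlgebra.single σ (1 : ℤ))
      rw [one_smul, MonoidAlgebra.smul_single, nsmul_eq_mul, mul_one]
    · refine ⟨List.replicate k (false, σ), ?_⟩
      rw [List.map_replicate, List.sum_replicate]
      change _ = k • ((-1 : ℤ) • MonoidAlgebra.single σ (1 : ℤ))
      rw [MonoidAlgebra.smul_single, MonoidAlgebra.smul_single, nsmul_eq_mul, smul_eq_mul, mul_one,
        mul_neg_one]

section

variable {T : SHCat} (S : Susp T)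

/-! ### the inputs -/

/-- the power of a space -/
abbrev powSp (P : Space) (m : ℕ) : Space := ofLC (LC.powObj (Fin m) (toLC P))

/-- the permutation `x ↦ x ∘ σ⁻¹` of the coordinates -/
def permSp (P : Space) (m : ℕ) (σ : Equiv.Perm (Fin m)) : Map (powSp P m) (powSp P m) :=
  ofHom (X := powSp P m) (Y := powSp P m) (reI σ⁻¹ (toLC P)).hom

/-- The suspension spectrum of the power of a finite cell space is the tensor power of its
suspension spectrum, with the action of the symmetric group. -/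
def PowCmp : Prop := ∀ (P : Space), FC P → ∀ m : ℕ, FC (powSp P m) ∧
  ∃ e : tpow (S.obj P) m ≅ S.obj (powSp P m), ∀ σ : Equiv.Perm (Fin m),
    e.hom ≫ S.map (permSp P m σ) = perm (S.obj P) m σ ≫ e.hom

/-- Powers, and products with the line, of finite `G`-cell spaces are finite `G`-cell spaces. -/
def PowGFC : Prop := ∀ (G : Type) [Group G] [Finite G] (X : GSpace G), GFC G X →
  ∀ m : ℕ, GFC G (xt (powG X (Fin m)) Rr)

/-- Mapping cones of equivariant maps. -/
def GConeEx : Prop := ∀ (G : Type) [Group G] [Finite G] (X Y : GSpace G), GFC G X → GFC G Y →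
  ∀ f : EMap X Y, ∃ C : GSpace G, GFC G C ∧ ∀ V : Subgroup G,
    H399.IsConeOf (S.map (ofHom (X := X.fix V) (Y := Y.fix V) (f.fix V))) (S.obj (C.fix V))

/-! ### ranks -/

variable {S}

theorem ev_add_od {K X : T.C} [MonObj K] {n : ℕ} (b : KR.KBasis K X (Fin n)) :
    b.ev + b.od = n := by
  classical
  unfold KR.KBasis.ev KR.KBasis.od
  rw [Nat.card_eq_fintype_card, Nat.card_eq_fintype_card]
  have h : ∀ i, Odd (b.e i) ↔ ¬ Even (b.e i) := fun i => Int.not_even_iff_odd.symm
  rw [Fintype.card_congr (Equiv.subtypeEquivRight h), Fintype.card_subtype_compl,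
    Fintype.card_fin]
  have := Fintype.card_subtype_le fun i => Even (b.e i)
  rw [Fintype.card_fin] at this
  omega

end

/-! ### sums over lists -/

section sums

variable {C : Type*} [Category* C] [Preadditive C]

theorem comp_lsum {Γ : Type*} {A B A' B' : C} (e : A ⟶ A') (e' : B ⟶ B') (f : Γ → (A ⟶ B))
    (f' : Γ → (A' ⟶ B')) (h : ∀ σ, e ≫ f' σ = f σ ≫ e') (c : List (Bool × Γ)) :
    e ≫ (c.map fun u => sg u.1 • f' u.2).sum = (c.map fun u => sg u.1 • f u.2).sum ≫ e' := by
  induction c with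
  | nil => rw [List.map_nil, List.map_nil, List.sum_nil, List.sum_nil, comp_zero, zero_comp]
  | cons u c ih =>
    rw [List.map_cons, List.map_cons, List.sum_cons, List.sum_cons, Preadditive.comp_add,
      Preadditive.add_comp, ih, Preadditive.comp_zsmul, Preadditive.zsmul_comp, h]

theorem lsum_whiskerRight [MonoidalCategory C] [MonoidalPreadditive C] {Γ : Type*} {A B : C}
    (f : Γ → (A ⟶ B)) (W : C) (c : List (Bool × Γ)) :
    (c.map fun u => sg u.1 • f u.2).sum ▷ W = (c.map fun u => sg u.1 • (f u.2 ▷ W)).sum := by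
  induction c with
  | nil =>
    rw [List.map_nil, List.map_nil, List.sum_nil, List.sum_nil,
      MonoidalPreadditive.zero_whiskerRight]
  | cons u c ih =>
    rw [List.map_cons, List.map_cons, List.sum_cons, List.sum_cons,
      MonoidalPreadditive.add_whiskerRight, ih]
    congr 1
    exact (tensorRight W).map_zsmul (f := f u.2) (r := sg u.1)

theorem permAlg_lsum [MonoidalCategory C] [SymmetricCategory C] (X : C) (m : ℕ)
    (c : List (Bool × Equiv.Perm (Fin m))) :
    (permAlg X m (c.map fun u => sg u.1 • MonoidAlgebra.single u.2 (1 : ℤ)).sum :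
      tpow X m ⟶ tpow X m) =
      (c.map fun u => sg u.1 • (perm X m u.2 : tpow X m ⟶ tpow X m)).sum := by
  induction c with
  | nil => rw [List.map_nil, List.map_nil, List.sum_nil, List.sum_nil, map_zero]
  | cons u c ih =>
    rw [List.map_cons, List.map_cons, List.sum_cons, List.sum_cons, map_add, map_zsmul,
      permAlg_single, one_smul, ← ih]

end sums

/-! ### the map of spaces -/

section spaces

variable {T : SHCat} (S : Susp T)

theorem map_ofHom_comp {X Y Z : Space} (hX : FC X) (hY : FC Y) (hZ : FC Z) (f : toLC X ⟶ toLC Y)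
    (g : toLC Y ⟶ toLC Z) :
    S.map (ofHom (X := X) (Y := Z) (f ≫ g)) = S.map (ofHom f) ≫ S.map (ofHom g) :=
  S.map_comp _ _ _ hX hY hZ rfl

/-- the isomorphism given by an isomorphism of spaces -/
def sIso {X Y : Space} (hX : FC X) (hY : FC Y) (e : toLC X ≅ toLC Y) : S.obj X ≅ S.obj Y where
  hom := S.map (ofHom e.hom)
  inv := S.map (ofHom e.inv)
  hom_inv_id := by
    rw [← map_ofHom_comp S hX hY hX, e.hom_inv_id]
    exact S.map_id _ hX rfl
  inv_hom_id := by
    rw [← map_ofHom_comp S hY hX hY, e.inv_hom_id]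
    exact S.map_id _ hY rfl

theorem isConeOf_conj {X Y X' Y' : Space} (hX : FC X) (hY : FC Y) (hX' : FC X') (hY' : FC Y')
    (e : toLC X ≅ toLC X') (e' : toLC Y ≅ toLC Y') (f : toLC X ⟶ toLC Y) (f' : toLC X' ⟶ toLC Y')
    (w : f ≫ e'.hom = e.hom ≫ f') {C : T.C} (H : H399.IsConeOf (S.map (ofHom f')) C) :
    H399.IsConeOf (S.map (ofHom f)) C := by
  refine H.of_arrow (sIso S hX hX' e).symm (sIso S hY hY' e').symm ?_
  change S.map (ofHom f') ≫ (sIso S hY hY' e').inv = (sIso S hX hX' e).inv ≫ S.map (ofHom f)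
  rw [Iso.comp_inv_eq, Category.assoc, Iso.eq_inv_comp]
  change S.map (ofHom e.hom) ≫ S.map (ofHom f') = S.map (ofHom f) ≫ S.map (ofHom e'.hom)
  rw [← map_ofHom_comp S hX hX' hY', ← map_ofHom_comp S hX hY hY', w]

/-- the linear combination of the permutations of the coordinates on `P^m × ℝ` -/
def linSp (P : Space) (m : ℕ) (c : List (Bool × Equiv.Perm (Fin m))) :
    Map ((powSp P m).prod Rr) ((powSp P m).prod Rr) :=
  ofHom (X := (powSp P m).prod Rr) (Y := (powSp P m).prod Rr)
    (lin (c.map fun u => (u.1, (reI u.2⁻¹ (toLC P)).hom)))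

theorem mul_map_linSp {P : Space} {m : ℕ} (hm : FC (powSp P m))
    (c : List (Bool × Equiv.Perm (Fin m))) :
    S.mul (powSp P m) Rr ≫ S.map (linSp P m c) =
      ((c.map fun u => sg u.1 • S.map (permSp P m u.2)).sum ⊗ₘ 𝟙 (S.obj Rr)) ≫
        S.mul (powSp P m) Rr := by
  let XF : FCat := FCat.mk (X := LC.powObj (Fin m) (toLC P)) (fc_toLC hm)
  let f : Equiv.Perm (Fin m) → (XF ⟶ XF) := fun σ => FCat.hom (reI σ⁻¹ (toLC P)).hom
  have h1 := map_lin S.toSpaceFunctor (X := XF) (Y := XF) (c.map fun u => (u.1, f u.2))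
  rw [List.map_map, List.map_map] at h1
  have h2 : S.map (linSp P m c) =
      (c.map fun u => sg u.1 • S.toSpaceFunctor.S.map (f u.2 ▷ RRF)).sum := h1
  have h3 : ∀ σ, S.mul (powSp P m) Rr ≫ S.toSpaceFunctor.S.map (f σ ▷ RRF) =
      (S.map (permSp P m σ) ▷ S.obj Rr) ≫ S.mul (powSp P m) Rr := fun σ => by
    have h3 := S.map_tensor (f σ) (𝟙 RRF)
    rw [MonoidalCategory.tensorHom_id, CategoryTheory.Functor.map_id,
      MonoidalCategory.tensorHom_id] at h3
    exact h3
  rw [MonoidalCategory.tensorHom_id]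
  refine Eq.trans (congrArg (S.mul (powSp P m) Rr ≫ ·) h2) ?_
  refine Eq.trans ?_ (congrArg (· ≫ S.mul (powSp P m) Rr)
    (lsum_whiskerRight (fun σ => S.map (permSp P m σ)) (S.obj Rr) c).symm)
  exact comp_lsum (S.mul (powSp P m) Rr) (S.mul (powSp P m) Rr)
    (fun σ => S.map (permSp P m σ) ▷ S.obj Rr)
    (fun σ => S.toSpaceFunctor.S.map (f σ ▷ RRF)) h3 c

variable {G : Type} [Group G]

/-- the permutation of the coordinates as an equivariant map -/
def permE (Z : GSpace G) (m : ℕ) (σ : Equiv.Perm (Fin m)) :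
    EMap (powG Z (Fin m)) (powG Z (Fin m)) := ⟨permG Z σ⁻¹, eqv_permG Z σ⁻¹⟩

/-- the linear combination of the permutations of the coordinates -/
def linE (Z : GSpace G) (m : ℕ) (c : List (Bool × Equiv.Perm (Fin m))) :
    EMap (xt (powG Z (Fin m)) Rr) (xt (powG Z (Fin m)) Rr) :=
  glin (c.map fun u => (u.1, permE Z m u.2))

theorem linE_fix (Z : GSpace G) (m : ℕ) (c : List (Bool × Equiv.Perm (Fin m)))
    (V : Subgroup G) :
    lin (c.map fun u => (u.1, (reI u.2⁻¹ (fixL Z V)).hom)) ≫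
        (whiskerRightIso (fixPow Z (Fin m) V) (toLC Rr) ≪≫ fixXt (powG Z (Fin m)) Rr V).hom =
      (whiskerRightIso (fixPow Z (Fin m) V) (toLC Rr) ≪≫ fixXt (powG Z (Fin m)) Rr V).hom ≫
        (linE Z m c).fix V := by
  have h1 := fixXt_glin (c.map fun u => (u.1, permE Z m u.2)) V
  rw [List.map_map] at h1
  have h2 := lin_map c (fun σ => (reI σ⁻¹ (fixL Z V)).hom) (fun σ => (permE Z m σ).fix V)
    (fixPow Z (Fin m) V).hom (fixPow Z (Fin m) V).hom (fun σ => (fixPow_permG Z σ⁻¹ V).symm)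
  rw [Iso.trans_hom, whiskerRightIso_hom, Category.assoc]
  refine Eq.trans ?_ (congrArg ((fixPow Z (Fin m) V).hom ▷ toLC Rr ≫ ·) h1.symm)
  rw [← Category.assoc]
  refine Eq.trans (congrArg (· ≫ (fixXt (powG Z (Fin m)) Rr V).hom) h2) ?_
  exact Category.assoc _ _ _

/-- The cone of the `V`-fixed map of `linE` is the suspension of the cone of the action on the
tensor power of `S (Z.fix V)`. -/
theorem nonempty_iso_cone {Z : GSpace G} {m : ℕ} {V : Subgroup G}
    (hV : FC ((xt (powG Z (Fin m)) Rr).fix V)) (hP : FC (powSp (Z.fix V) m))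
    (e : tpow (S.obj (Z.fix V)) m ≅ S.obj (powSp (Z.fix V) m))
    (he : ∀ σ : Equiv.Perm (Fin m), e.hom ≫ S.map (permSp (Z.fix V) m σ) =
      perm (S.obj (Z.fix V)) m σ ≫ e.hom) (c : List (Bool × Equiv.Perm (Fin m)))
    {x : MonoidAlgebra ℤ (Equiv.Perm (Fin m))}
    (hx : x = (c.map fun u => sg u.1 • MonoidAlgebra.single u.2 (1 : ℤ)).sum) {C W : T.C}
    (hC : H399.IsConeOf (S.map (ofHom (X := (xt (powG Z (Fin m)) Rr).fix V)
      (Y := (xt (powG Z (Fin m)) Rr).fix V) ((linE Z m c).fix V))) C)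
    (hW : H399.IsConeOf (permAlg (S.obj (Z.fix V)) m x : tpow (S.obj (Z.fix V)) m ⟶ _) W) :
    Nonempty (C ≅ W⟦(1 : ℤ)⟧) := by
  have hPR : FC ((powSp (Z.fix V) m).prod Rr) := fc_prod hP H399.fc_Rr
  let E : toLC ((powSp (Z.fix V) m).prod Rr) ≅ toLC ((xt (powG Z (Fin m)) Rr).fix V) :=
    whiskerRightIso (fixPow Z (Fin m) V) (toLC Rr) ≪≫ fixXt (powG Z (Fin m)) Rr V
  have h1 : H399.IsConeOf (S.map (linSp (Z.fix V) m c)) C :=
    isConeOf_conj S hPR hPR hV hV E E _ _ (linE_fix Z m c V) hC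
  refine H399.isConeOf_line_iso S hP hP _ _ (mul_map_linSp S hP c) ?_ h1
  refine hW.of_arrow e e ?_
  rw [hx, permAlg_lsum]
  exact (comp_lsum e.hom e.hom (fun σ => (perm (S.obj (Z.fix V)) m σ :
    tpow (S.obj (Z.fix V)) m ⟶ tpow (S.obj (Z.fix V)) m))
    (fun σ => S.map (permSp (Z.fix V) m σ)) he c).symm

end spaces

/-! ### the Young step -/

section main

variable {T : SHCat} (S : Susp T)

theorem youngMap_eq (p r : ℕ) (X : T.C) : R.youngMap p r X =
    (permAlg X (M p r) (Y p r - nY p r • 1) : tpow X (M p r) ⟶ tpow X (M p r)) := by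
  rw [map_sub, map_zsmul, map_one]
  rfl

/-- **The Young step for `G`-spaces.** -/
theorem youngG_of {p : ℕ} (hF : FixFC) (hPow : PowGFC) (hCone : GConeEx S) (hCmp : PowCmp S)
    (hY : R.YoungStmt S p) : H132.YoungG S p := by
  intro K hK G _ _ Z hZ r
  obtain ⟨c, hc⟩ := exists_slist (Y p r - nY p r • (1 : MonoidAlgebra ℤ _))
  obtain ⟨D, hD, hDV⟩ := hCone G _ _ (hPow G Z hZ (M p r)) (hPow G Z hZ (M p r))
    (linE Z (M p r) c)
  refine ⟨D, hD, fun V j => ?_⟩
  have hP : FC (Z.fix V) := hF G Z hZ V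
  obtain ⟨hPm, e, he⟩ := hCmp (Z.fix V) hP (M p r)
  obtain ⟨W, g, h, hW⟩ := H399.exists_isConeOf (R.youngMap p r (S.obj (Z.fix V)))
  have hW' : H399.IsConeOf (permAlg (S.obj (Z.fix V)) (M p r) (Y p r - nY p r • 1) :
      tpow (S.obj (Z.fix V)) (M p r) ⟶ tpow (S.obj (Z.fix V)) (M p r)) W := by
    rw [← youngMap_eq]
    exact ⟨g, h, hW⟩
  obtain ⟨i⟩ := nonempty_iso_cone S (hF G _ (hPow G Z hZ (M p r)) V) hPm e he c hc (hDV V) hW'
  have hi : Acyclic (K j).obj (S.obj (D.fix V)) ↔ Acyclic (K j).obj W :=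
    (H435.acyclic_congr i).trans (H435.acyclic_shift 1)
  rw [hi]
  constructor
  · rintro ε hε ⟨m, b, hm⟩
    refine (hY j (K j) (hK j) (Z.fix V) hP b.ev b.od ⟨Fin m, inferInstance, b, rfl, rfl⟩ r W g h
      hW).1 ?_
    rw [ev_add_od b]
    omega
  · rintro ⟨m, b, hm⟩
    exact (hY j (K j) (hK j) (Z.fix V) hP b.ev b.od ⟨Fin m, inferInstance, b, rfl, rfl⟩ r W g h
      hW).2 hm

end main

end Vale.Agent.P241.H208
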