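import Vale.Agent.P241.H208.Young
import Vale.Agent.P093.N.SymPowH

/-!
# P241, block YG: the suspension spectrum of the power of a space

`powCmp S : PowCmp S` : for a finite cell space `P`, the suspension spectrum of `P^m` is the `m`-th
tensor power of the suspension spectrum of `P`, compatibly with the actions of the symmetric group
(`SymPow.perm`).
-/

open CategoryTheory MonoidalCategory Limits OnePoint
open Vale.Agent.P251 Vale.Agent.P251.St Vale.Agent.P251.St.SHCat
open Vale.Agent.P251.G Vale.Agent.P251.G.LC Vale.Agent.P251.I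
open Vale.Agent.P093.SymPow Vale.Agent.P093.Cox

noncomputable section

namespace Vale.Agent.P241.H208

/-! ### lax braided functors and the swap of the first two factors -/

section lax

universe v₁ u₁ v₂ u₂

variable {C : Type u₁} [Category.{v₁} C] [MonoidalCategory C] [SymmetricCategory C]
  {D : Type u₂} [Category.{v₂} D] [MonoidalCategory D] [SymmetricCategory D] (F : C ⥤ D)
  [F.LaxBraided]

open Functor.LaxMonoidal in
@[reassoc]
theorem sw2_μ (X Y R : C) :
    sw2 (F.obj X) (F.obj Y) (F.obj R) ≫ (F.obj Y ◁ μ F X R) ≫ μ F Y (X ⊗ R) =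
      (F.obj X ◁ μ F Y R) ≫ μ F X (Y ⊗ R) ≫ F.map (sw2 X Y R) := by
  have h1 := associativity_inv F X Y R
  have h2 := Functor.LaxMonoidal.associativity F Y X R
  unfold sw2
  rw [F.map_comp, F.map_comp, Category.assoc, Category.assoc, reassoc_of% h1,
    ← μ_natural_left_assoc, ← h2, ← MonoidalCategory.comp_whiskerRight_assoc,
    ← MonoidalCategory.comp_whiskerRight_assoc, Functor.LaxBraided.braided]

end lax

/-! ### powers of spaces -/

section spaces

/-- `X × X^m = X^(m + 1)` -/
def consI (X : LC) (m : ℕ) : X ⊗ LC.powObj (Fin m) X ≅ LC.powObj (Fin (m + 1)) X :=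
  ofHomeo (X := X ⊗ LC.powObj (Fin m) X) (Y := LC.powObj (Fin (m + 1)) X)
    { toFun := fun p => (Fin.cons p.1 p.2 : Fin (m + 1) → X)
      invFun := fun x => (x 0, Fin.tail x)
      left_inv := fun p => rfl
      right_inv := fun x => Fin.cons_self_tail x
      continuous_toFun := continuous_pi fun j => by
        refine Fin.cases ?_ (fun j => ?_) j
        · exact continuous_fst
        · exact (continuous_apply j).comp continuous_snd
      continuous_invFun := (continuous_apply 0).prodMk
        (continuous_pi fun j => continuous_apply j.succ) }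

theorem app_consI (X : LC) (m : ℕ) (x : X) (y : Fin m → X) :
    app (consI X m).hom (LC.smash (x : OnePoint X) (y : OnePoint (Fin m → X))) =
      ((Fin.cons x y : Fin (m + 1) → X) : OnePoint (Fin (m + 1) → X)) := rfl

/-- the point is the empty power -/
def unitI (X : LC) : 𝟙_ LC ≅ LC.powObj (Fin 0) X :=
  ofHomeo (X := 𝟙_ LC) (Y := LC.powObj (Fin 0) X)
    { toFun := fun _ => Fin.elim0
      invFun := fun _ => ()
      left_inv := fun _ => rfl
      right_inv := fun _ => Subsingleton.elim _ _
      continuous_toFun := continuous_const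
      continuous_invFun := continuous_const }

theorem consI_adj_succ (X : LC) {m : ℕ} (i : Fin m) :
    X ◁ (reI (adj i) X).hom ≫ (consI X (m + 1)).hom =
      (consI X (m + 1)).hom ≫ (reI (adj i.succ) X).hom := by
  apply tensor_ext
  intro x y
  have h1 : app (X ◁ (reI (adj i) X).hom) (LC.smash (x : OnePoint X)
      (y : OnePoint (Fin (m + 1) → X))) = LC.smash (x : OnePoint X)
      ((y ∘ adj i : Fin (m + 1) → X) : OnePoint (Fin (m + 1) → X)) :=
    app_whiskerLeft_smash _ _ _ _
  rw [app_comp, app_comp, h1, app_consI, app_consI, app_reI_coe]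
  congr 1
  funext j
  refine Fin.cases ?_ (fun j => ?_) j
  · change x = (Fin.cons x y : Fin (m + 2) → X) (adj i.succ 0)
    rw [LaxF.adj_succ_apply_zero]
    rfl
  · change y (adj i j) = (Fin.cons x y : Fin (m + 2) → X) (adj i.succ j.succ)
    rw [LaxF.adj_succ_apply_succ]
    rfl

theorem tensor_ext₃' {X Y Z W : LC} {f g : X ⊗ (Y ⊗ Z) ⟶ W}
    (h : ∀ (x : X) (y : Y) (z : Z),
      app f (LC.smash (x : OnePoint X) (LC.smash (y : OnePoint Y) (z : OnePoint Z))) =
        app g (LC.smash (x : OnePoint X) (LC.smash (y : OnePoint Y) (z : OnePoint Z)))) :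
    f = g := by
  apply hom_ext
  rintro ⟨x, y, z⟩
  exact h x y z

theorem app_sw2_smash (X Y R : LC) (x : OnePoint X) (y : OnePoint Y) (r : OnePoint R) :
    app (sw2 X Y R) (LC.smash x (LC.smash y r)) = LC.smash y (LC.smash x r) := by
  unfold sw2
  rw [app_comp, app_comp, app_associator_inv_smash, app_whiskerRight_smash, app_braiding_smash,
    app_associator_smash]

theorem consI_adj_zero (X : LC) (m : ℕ) :
    sw2 X X (LC.powObj (Fin m) X) ≫ X ◁ (consI X m).hom ≫ (consI X (m + 1)).hom =
      X ◁ (consI X m).hom ≫ (consI X (m + 1)).hom ≫ (reI (adj 0) X).hom := by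
  apply tensor_ext₃'
  intro x y z
  rw [app_comp, app_comp, app_comp, app_comp, app_sw2_smash, app_whiskerLeft_smash,
    app_whiskerLeft_smash, app_consI, app_consI, app_consI, app_consI, app_reI_coe]
  congr 1
  funext j
  refine Fin.cases ?_ (fun j => ?_) j
  · rfl
  · refine Fin.cases ?_ (fun j => ?_) j
    · rfl
    · rfl

end spaces

/-! ### finite cell spaces -/

section fc

/-- the power of a finite cell space -/
theorem fc_powObj {X : LC} (hX : LC.FC X) (m : ℕ) : LC.FC (LC.powObj (Fin m) X) := by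
  induction m with
  | zero => exact LC.FC.unit.of_iso (unitI X)
  | succ m ih => exact (hX.tensor ih).of_iso (consI X m)

/-- the power, in `FCat` -/
abbrev powF (X : FCat) (m : ℕ) : FCat := ⟨LC.powObj (Fin m) X.obj, fc_powObj X.property m⟩

/-- reindexing, in `FCat` -/
def reF (X : FCat) {m : ℕ} (σ : Equiv.Perm (Fin m)) : powF X m ⟶ powF X m :=
  FCat.hom (reI σ X.obj).hom

/-- `X × X^m = X^(m + 1)`, in `FCat` -/
def consF (X : FCat) (m : ℕ) : X ⊗ powF X m ≅ powF X (m + 1) where
  hom := FCat.hom (consI X.obj m).hom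
  inv := FCat.hom (consI X.obj m).inv
  hom_inv_id := by
    ext1
    exact (consI X.obj m).hom_inv_id
  inv_hom_id := by
    ext1
    exact (consI X.obj m).inv_hom_id

/-- the point is the empty power, in `FCat` -/
def unitF (X : FCat) : 𝟙_ FCat ≅ powF X 0 where
  hom := FCat.hom (unitI X.obj).hom
  inv := FCat.hom (unitI X.obj).inv
  hom_inv_id := by
    ext1
    exact (unitI X.obj).hom_inv_id
  inv_hom_id := by
    ext1
    exact (unitI X.obj).inv_hom_id

theorem consF_adj_succ (X : FCat) {m : ℕ} (i : Fin m) :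
    X ◁ reF X (adj i) ≫ (consF X (m + 1)).hom = (consF X (m + 1)).hom ≫ reF X (adj i.succ) := by
  ext1
  exact consI_adj_succ X.obj i

theorem consF_adj_zero (X : FCat) (m : ℕ) :
    sw2 X X (powF X m) ≫ X ◁ (consF X m).hom ≫ (consF X (m + 1)).hom =
      X ◁ (consF X m).hom ≫ (consF X (m + 1)).hom ≫ reF X (adj 0) := by
  ext1
  exact consI_adj_zero X.obj m

theorem reF_one (X : FCat) (m : ℕ) : reF X (1 : Equiv.Perm (Fin m)) = 𝟙 _ := by
  ext1
  exact reI_one X.obj

theorem reF_mul (X : FCat) {m : ℕ} (σ τ : Equiv.Perm (Fin m)) :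
    reF X (σ * τ) = reF X σ ≫ reF X τ := by
  ext1
  exact reI_mul σ τ X.obj

end fc

/-! ### the comparison -/

section cmp

universe v u

variable {D : Type u} [Category.{v} D] [MonoidalCategory D] [SymmetricCategory D]
  (F : FCat ⥤ D) [F.Braided]

open Functor.LaxMonoidal Functor.Monoidal

/-- `(F X)^⊗m ≅ F (X^m)` -/
def cmpI (X : FCat) : (m : ℕ) → (tpow (F.obj X) m ≅ F.obj (powF X m))
  | 0 => εIso F ≪≫ F.mapIso (unitF X)
  | m + 1 => whiskerLeftIso (F.obj X) (cmpI X m) ≪≫ μIso F X (powF X m) ≪≫ F.mapIso (consF X m)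

theorem cmpI_succ_hom (X : FCat) (m : ℕ) : (cmpI F X (m + 1)).hom =
    F.obj X ◁ (cmpI F X m).hom ≫ μ F X (powF X m) ≫ F.map (consF X m).hom := rfl

theorem sw_cmpI (X : FCat) {m : ℕ} (i : Fin m) :
    sw (F.obj X) (m + 1) i ≫ (cmpI F X (m + 1)).hom =
      (cmpI F X (m + 1)).hom ≫ F.map (reF X (adj i)) := by
  induction m with
  | zero => exact i.elim0
  | succ m ih =>
    refine Fin.cases ?_ (fun i => ?_) i
    · change sw2 (F.obj X) (F.obj X) (tpow (F.obj X) m) ≫ _ = _
      rw [cmpI_succ_hom, cmpI_succ_hom, MonoidalCategory.whiskerLeft_comp,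
        MonoidalCategory.whiskerLeft_comp]
      simp only [Category.assoc]
      rw [μ_natural_right_assoc, μ_natural_right_assoc, ← F.map_comp, ← F.map_comp,
        ← F.map_comp, ← sw2_naturality_right_assoc, sw2_μ_assoc, ← F.map_comp, consF_adj_zero]
    · change F.obj X ◁ sw (F.obj X) (m + 1) i ≫ (cmpI F X (m + 1 + 1)).hom = _
      rw [cmpI_succ_hom, ← MonoidalCategory.whiskerLeft_comp_assoc, ih,
        MonoidalCategory.whiskerLeft_comp_assoc, Category.assoc, Category.assoc, ← F.map_comp,
        ← consF_adj_succ, F.map_comp, ← μ_natural_right_assoc]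

theorem perm_cmpI (X : FCat) (m : ℕ) (σ : Equiv.Perm (Fin m)) :
    (cmpI F X m).hom ≫ F.map (reF X σ⁻¹) = perm (F.obj X) m σ ≫ (cmpI F X m).hom := by
  cases m with
  | zero =>
    have h : σ⁻¹ = 1 := Subsingleton.elim _ _
    rw [h, reF_one, CategoryTheory.Functor.map_id, Category.comp_id]
    exact (Category.id_comp _).symm
  | succ m =>
    induction σ using perm_induction with
    | h1 =>
      rw [inv_one, reF_one, CategoryTheory.Functor.map_id, Category.comp_id, perm_one,
        Category.id_comp]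
    | h i σ hσ =>
      have h : (adj i)⁻¹ = adj i := Equiv.swap_inv _ _
      rw [mul_inv_rev, h, reF_mul, F.map_comp, reassoc_of% hσ, ← sw_cmpI, perm_adj_mul,
        Category.assoc]

end cmp

/-- **The suspension spectrum of the power of a finite cell space.** -/
theorem powCmp {T : SHCat} (S : Susp T) : PowCmp S := by
  intro P hP m
  let X : FCat := FCat.mk (X := toLC P) (fc_toLC hP)
  refine ⟨fc_ofLC (fc_powObj (fc_toLC hP) m), cmpI S.toSpaceFunctor.S X m, fun σ => ?_⟩
  exact perm_cmpI S.toSpaceFunctor.S X m σ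

end Vale.Agent.P241.H208
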